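import Vale.Agent.P218G.L01

/-! Minimal cones which are smooth off the vertex have density at most one, without an a priori
bound on the density. -/

set_option linter.all false

open MeasureTheory Set Filter Topology Metric
open scoped ENNReal NNReal RealInnerProductSpace ContDiff

namespace Vale.Agent.P218R27

open Vale.Agent.P218 Vale.Agent.P218G Vale.Agent.P218G.Lit Vale.Agent.P218G.Rg
open Vale.Agent.P218G.Par Vale.Agent.P218G.GL
open Vale.Agent.P218FT (E3 IsEqn Hv)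

lemma grad_perp {C : Set E3} {p n u : E3} {w : E3 → ℝ} (hw : IsEqn C p w) (p0 : p ≠ 0)
    (hp : ⟪n, p⟫ = 0) (hn : ∀ y, ⟪n, y⟫ = 0 → y ≠ 0 → y ∈ C) (hu : ⟪n, u⟫ = 0) :
    ⟪gradient w p, u⟫ = 0 := by
  have h1 : HasDerivAt (fun s : ℝ => p + s • u) u 0 := by
    simpa using ((hasDerivAt_id (0 : ℝ)).smul_const u).const_add p
  have h2 : Tendsto (fun s : ℝ => p + s • u) (𝓝 0) (𝓝 p) := by
    simpa using h1.continuousAt.tendsto
  have h3 := (hw.1.differentiable (by simp) p).hasFDerivAt.comp_hasDerivAt_of_eq (0 : ℝ) h1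
    (by simp)
  have h4 : (w ∘ fun s : ℝ => p + s • u) =ᶠ[𝓝 0] fun _ => 0 := by
    filter_upwards [h2.eventually hw.2.2, h2.eventually (eventually_ne_nhds p0)] with s a b
    exact a.1 (hn _ (by rw [inner_add_right, inner_smul_right, hp, hu]; ring) b)
  have h5 := h3.unique ((hasDerivAt_const (0 : ℝ) (0 : ℝ)).congr_of_eventuallyEq h4)
  rw [← h5, gradient, InnerProductSpace.toDual_symm_apply]

/-- two planes in a cone which is smooth off the vertex coincide -/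
lemma same_plane {C : Set E3} (sm : ∀ p ∈ C, p ≠ 0 → ∃ w, IsEqn C p w) {n n' x : E3}
    (n1 : ‖n‖ = 1) (n1' : ‖n'‖ = 1) (hn : ∀ y, ⟪n, y⟫ = 0 → y ≠ 0 → y ∈ C)
    (hn' : ∀ y, ⟪n', y⟫ = 0 → y ≠ 0 → y ∈ C) (hx : ⟪n', x⟫ = 0) : ⟪n, x⟫ = 0 := by
  have h1 := Submodule.finrank_sup_add_finrank_inf_eq (ℝ ∙ n)ᗮ (ℝ ∙ n')ᗮ
  have h2 := Submodule.finrank_le ((ℝ ∙ n)ᗮ ⊔ (ℝ ∙ n')ᗮ)
  rw [finrank_perp n1, finrank_perp n1'] at h1
  rw [finrank_euclideanSpace_fin] at h2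
  obtain ⟨p, hp, p0⟩ := Submodule.exists_mem_ne_zero_of_ne_bot
    (p := (ℝ ∙ n)ᗮ ⊓ (ℝ ∙ n')ᗮ) fun e => by
      rw [e, finrank_bot] at h1
      omega
  have a1 := Submodule.mem_orthogonal_singleton_iff_inner_right.1 hp.1
  have a2 := Submodule.mem_orthogonal_singleton_iff_inner_right.1 hp.2
  obtain ⟨w, hw⟩ := sm p (hn p a1 p0) p0
  have b1 := grad_perp hw p0 a2 hn' hx
  have b2 := grad_perp hw p0 a1 hn (u := x - ⟪n, x⟫ • n) (by
    rw [inner_sub_right, inner_smul_right, real_inner_self_eq_norm_sq, n1]; ring)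
  rw [inner_sub_right, b1, inner_smul_right, zero_sub, neg_eq_zero, mul_eq_zero] at b2
  refine b2.resolve_right fun c => hw.2.1 ?_
  exact inner_self_eq_zero.1 (grad_perp hw p0 a1 hn (by rwa [real_inner_comm]))

/-- **A minimal cone of multiplicity one which is smooth away from the vertex has density at most
one.** -/
theorem cone_plane' {ν : Measure E3} {D : ℝ} (hE : Ent ν D) {C : Set E3} (hC : IsClosed C)
    (cn : ∀ x ∈ C, ∀ c : ℝ, 0 < c → c • x ∈ C)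
    (hν : ν.restrict {0}ᶜ = (μH[2] : Measure E3).restrict (C ∩ {0}ᶜ))
    (sm : ∀ p ∈ C, p ≠ 0 → (∃ w, IsEqn C p w) ∧ Hv C p = 0)
    {σ : ℝ} (hσ : 0 < σ) : GA ν 0 σ ≤ om0 := by
  have o0 := om0_pos
  obtain ⟨v, hv⟩ := exists_norm_eq E3 zero_le_one
  have z : ({0} : Set E3) ⊆ axis v := singleton_subset_iff.2 ⟨0, zero_smul _ _⟩
  have hG : ENNReal.ofReal (GA ν 0 σ) = ∫⁻ x in C ∩ {0}ᶜ, ENNReal.ofReal (gk0 σ x) ∂μH[2] := by
    rw [← hν, Measure.restrict_eq_self_of_ae_mem (s := ({0} : Set E3)ᶜ)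
      (measure_eq_zero_iff_ae_notMem.1 (measure_mono_null z (ent_axis hE hv))), GA,
      ofReal_integral_eq_lintegral_ofReal (hE.int 0 σ hσ)
        (Eventually.of_forall fun x => (gk0_pos hσ _).le)]
    simp only [sub_zero]
  rw [← ENNReal.ofReal_le_ofReal_iff o0.le, hG]
  rcases (C ∩ {0}ᶜ).eq_empty_or_nonempty with h | ⟨x, hx⟩
  · simp [h]
  obtain ⟨n, n1, -, hn⟩ := plane_sub hC cn sm hx.1 hx.2
  rw [← lintegral_gk0_plane (finrank_perp n1) hσ]
  refine lintegral_mono_set fun x' hx' => ?_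
  obtain ⟨n', n1', h1, hn'⟩ := plane_sub hC cn sm hx'.1 hx'.2
  exact Submodule.mem_orthogonal_singleton_iff_inner_right.2
    (same_plane (fun p a b => (sm p a b).1) n1 n1' hn hn' h1)

variable {ν μ : ℝ → Measure E3} {a D t₀ : ℝ} {x₀ : E3}

theorem l1_core' (hg : ∀ b, GS ν b D) (ss : SS ν) (st : Stat ν) {K : Set (ℝ × E3)}
    (hM : IsMCFOn (Spt ν) K)
    (hm : (ν (-1)).restrict (tsl K (-1)) =
      (μH[2] : Measure E3).restrict (Spt ν (-1) ∩ tsl K (-1)))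
    (hK : ∀ p : E3, p ≠ 0 → ((-1 : ℝ), p) ∈ K) : GA (ν (-1)) 0 1 ≤ om0 := by
  refine cone_plane' ((hg (-1)).ent _ le_rfl) ((hg (-2)).isClosed_spt (by norm_num))
    (spt_cone ss st hg) (restrict_sub hm (measurableSet_singleton 0).compl hK)
    (fun p hp p0 => static_Hv hM (hK p p0) hp ?_) one_pos
  filter_upwards [gt_mem_nhds (show (-1 : ℝ) < 0 by norm_num)] with s hs
  rwa [st.spt_eq hg hs.le]

/-- **static limit cones with density at most one off the vertex** -/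
theorem l1_lim' (hμ : IsIntegralBrakkeFlow 2 μ) (h0 : μ 0 univ < ⊤) (hU : IsUnitRegular μ)
    (h : GS μ a D) (ha : 0 ≤ a) (ht : a < t₀) (hb : Lim μ x₀ t₀ ν) (ss : SS ν) (st : Stat ν)
    (hp : ∀ p, p ≠ 0 → GC.DL ν p (-1)) : GA (ν (-1)) 0 1 ≤ om0 := by
  obtain ⟨ι, U, x, t, lam, hb⟩ := hb
  obtain ⟨ε, hε, -, h4⟩ := lim_rs hb hμ h0 hU h ha ht
  exact l1_core' (fun b => (h4 b).gs) ss st (h4 0).mcf ((h4 0).meas _)
    (fun p c => rs_mem h4 hε (hp p c))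

end Vale.Agent.P218R27
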