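import Vale.Agent.P218G.GBlow

/-! Limits of rescalings along a filter are limits along a sequence. -/

set_option linter.all false

open MeasureTheory Set Filter Topology Metric
open scoped ENNReal NNReal CompactlySupported

namespace Vale.Agent.P218R27

open Vale.Agent.P218 Vale.Agent.P218G Vale.Agent.P218G.Lit Vale.Agent.P218G.Rg
open Vale.Agent.P218G.GL
open Vale.Agent.P218FT (E3)

lemma ent_ball {m : Measure E3} {D : ℝ} (h : Ent m D) {R : ℝ} (hR : 0 < R) :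
    m (closedBall 0 R) ≤ (Real.exp (1 / 4) * R ^ 2 * D).toNNReal := by
  have := h.lf
  rw [← ofReal_measureReal (measure_closedBall_lt_top (μ := m) (x := 0) (r := R)).ne]
  exact ENNReal.ofReal_le_ofReal (h.ball_le 0 hR)

/-- a countable family of test functions which determines weak convergence -/
theorem exists_family : ∃ Ψ : ℕ × ℕ → C_c(E3, ℝ), ∀ (D : ℝ) (u : ℕ → Measure E3) (κ : Measure E3),
    (∀ᶠ i in atTop, Ent (u i) D) → Ent κ D →
    (∀ p, Tendsto (fun i => fnl (u i) (Ψ p)) atTop (𝓝 (fnl κ (Ψ p)))) → WL atTop u κ := by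
  classical
  choose χ hχ1 hχ2 using fun k : ℕ => exists_cutoff (E := E3) (k : ℝ)
  let F : ℕ → C(E3, ℝ) := TopologicalSpace.denseSeq C(E3, ℝ)
  have hD : DenseRange F := TopologicalSpace.denseRange_denseSeq _
  let Ψ : ℕ → ℕ → C_c(E3, ℝ) := fun k j =>
    ⟨(χ k : C(E3, ℝ)) * F j, (χ k).hasCompactSupport.mul_right⟩
  have hΨ : ∀ k j x, Ψ k j x = χ k x * F j x := fun k j x => rfl
  refine ⟨fun p => Ψ p.1 p.2, fun D u ν hu hν hψt φ hφc hφs => ?_⟩
  have := hν.lf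
  obtain ⟨k, hk⟩ : ∃ k : ℕ, ∀ x, (k : ℝ) < ‖x‖ → φ x = 0 := by
    obtain ⟨R, hR⟩ := hφs.isCompact.isBounded.subset_closedBall 0
    obtain ⟨k, hk⟩ := exists_nat_ge R
    refine ⟨k, fun x hx => image_eq_zero_of_notMem_tsupport fun h => ?_⟩
    have := hR h
    rw [mem_closedBall_zero_iff] at this
    linarith
  obtain ⟨R, hR⟩ : ∃ R : ℝ, ∀ x, R < ‖x‖ → χ k x = 0 := by
    obtain ⟨R, hR⟩ := (χ k).hasCompactSupport.isCompact.isBounded.subset_closedBall 0
    refine ⟨R, fun x hx => image_eq_zero_of_notMem_tsupport fun h => ?_⟩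
    have := hR h
    rw [mem_closedBall_zero_iff] at this
    linarith
  set R' := max (max R k) 1 with hR'
  have R0 : 0 < R' := lt_max_of_lt_right one_pos
  set C : ℝ≥0 := (Real.exp (1 / 4) * R' ^ 2 * D).toNNReal
  refine tendsto_of_approx fun ε hε => ?_
  set M : ℝ := ε / (C + 1) with hM
  have hMpos : 0 < M := by positivity
  obtain ⟨j, hj⟩ : ∃ j, ∀ x, ‖x‖ ≤ R' → |F j x - φ x| < M := by
    let φ' : C(E3, ℝ) := ⟨φ, hφc⟩
    have hopen : IsOpen {g : C(E3, ℝ) | MapsTo (g - φ') (Metric.closedBall (0 : E3) R')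
        (Metric.ball 0 M)} :=
      (ContinuousMap.isOpen_setOfPred_mapsTo (isCompact_closedBall (0 : E3) R')
        Metric.isOpen_ball).preimage (continuous_sub_right φ')
    obtain ⟨j, hj⟩ := hD.exists_mem_open hopen ⟨φ', fun x _ => by simpa using hMpos⟩
    refine ⟨j, fun x hx => ?_⟩
    have := hj (show x ∈ Metric.closedBall (0 : E3) R' by simpa using hx)
    have h2 : φ' x = φ x := rfl
    simpa [h2] using this
  have happ : ∀ x, ‖x‖ ≤ R' → |φ x - Ψ k j x| ≤ M := by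
    intro x hx
    rw [hΨ]
    have h1 : φ x = χ k x * φ x := by
      by_cases hxk : ‖x‖ ≤ k
      · rw [hχ2 k x hxk, one_mul]
      · push Not at hxk
        rw [hk x hxk, mul_zero]
    rw [h1, ← mul_sub, abs_mul, abs_sub_comm, abs_of_nonneg (hχ1 k x).1]
    calc χ k x * |F j x - φ x| ≤ 1 * |F j x - φ x| := by
          gcongr
          exact (hχ1 k x).2
      _ ≤ M := by rw [one_mul]; exact (hj x hx).le
  have hφR : ∀ x, R' < ‖x‖ → φ x = 0 := fun x hx =>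
    hk x (((le_max_right _ _).trans (le_max_left _ _)).trans_lt hx)
  have hΨR : ∀ x, R' < ‖x‖ → Ψ k j x = 0 := fun x hx => by
    rw [hΨ, hR x (((le_max_left _ _).trans (le_max_left _ _)).trans_lt hx), zero_mul]
  have key : ∀ n : Measure E3, Ent n D → |∫ x, φ x ∂n - fnl n (Ψ k j)| ≤ ε := fun n hn => by
    have := hn.lf
    refine (abs_integral_sub_le hφc (Ψ k j).continuous hφR hΨR happ hMpos.le
      (ent_ball hn R0)).trans ?_
    rw [hM, div_mul_eq_mul_div, div_le_iff₀ (by positivity)]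
    nlinarith [C.coe_nonneg]
  exact ⟨fun i => fnl (u i) (Ψ k j), fnl ν (Ψ k j), hψt (k, j), hu.mono fun i hi => key _ hi,
    key _ hν⟩

/-- extraction of a sequence -/
theorem exists_seq {ι : Type*} {l : Filter ι} [l.NeBot] {m : ι → Measure E3} {κ : Measure E3}
    {D : ℝ} (hw : WL l m κ) (hm : ∀ᶠ i in l, Ent (m i) D) (hκ : Ent κ D) {G : Filter ι}
    [G.IsCountablyGenerated] (hG : l ≤ G) :
    ∃ u : ℕ → ι, Tendsto u atTop G ∧ WL atTop (fun n => m (u n)) κ := by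
  obtain ⟨Ψ, hΨ⟩ := exists_family
  have h1 : l ≤ G ⊓ (𝓟 {i | Ent (m i) D} ⊓
      comap (fun i p => fnl (m i) (Ψ p)) (𝓝 fun p => fnl κ (Ψ p))) :=
    le_inf hG (le_inf (le_principal_iff.2 hm) (tendsto_iff_comap.1 (tendsto_pi_nhds.2 fun p =>
      hw (Ψ p) (Ψ p).continuous (Ψ p).hasCompactSupport)))
  have := neBot_of_le h1
  obtain ⟨u, hu⟩ := exists_seq_tendsto (G ⊓ (𝓟 {i | Ent (m i) D} ⊓
      comap (fun i p => fnl (m i) (Ψ p)) (𝓝 fun p => fnl κ (Ψ p))))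
  rw [tendsto_inf, tendsto_inf, tendsto_principal, tendsto_comap_iff, tendsto_pi_nhds] at hu
  exact ⟨u, hu.1, hΨ D _ κ hu.2.1 hκ hu.2.2⟩

/-- **a slice of a limit flow is the limit of a sequence of rescaled slices** -/
theorem seq_of_lim {μ ν : ℝ → Measure E3} {x₀ : E3} {t₀ a D : ℝ} (hb : Lim μ x₀ t₀ ν)
    (h : GS μ a D) (ht : a < t₀) (s : ℝ) : ∃ (x : ℕ → E3) (t lam : ℕ → ℝ),
      Tendsto x atTop (𝓝 x₀) ∧ Tendsto t atTop (𝓝 t₀) ∧ Tendsto lam atTop atTop ∧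
      WeakTendsto (fun i => rescaled 2 μ (x i) (t i) (lam i) s) (ν s) := by
  obtain ⟨ι, U, x, t, lam, hb⟩ := hb
  obtain ⟨u, h1, h2⟩ := exists_seq (hb.lim s) (hb.ev' h ht s) (hb.ent h ht s)
    (G := comap x (𝓝 x₀) ⊓ (comap t (𝓝 t₀) ⊓ comap lam atTop))
    (le_inf (tendsto_iff_comap.1 hb.hx) (le_inf (tendsto_iff_comap.1 hb.ht)
      (tendsto_iff_comap.1 hb.top)))
  rw [tendsto_inf, tendsto_inf, tendsto_comap_iff, tendsto_comap_iff, tendsto_comap_iff] at h1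
  exact ⟨x ∘ u, t ∘ u, lam ∘ u, h1.1, h1.2.1, h1.2.2, h2⟩

/-- the same with the slices taken at the times `t i` themselves -/
theorem seq_of_lim0 {μ ν : ℝ → Measure E3} {x₀ : E3} {t₀ a D : ℝ} (hb : Lim μ x₀ t₀ ν)
    (h : GS μ a D) (ht : a < t₀) (s : ℝ) : ∃ (x : ℕ → E3) (t lam : ℕ → ℝ),
      Tendsto x atTop (𝓝 x₀) ∧ Tendsto t atTop (𝓝 t₀) ∧ Tendsto lam atTop atTop ∧
      WeakTendsto (fun i => rescaled 2 μ (x i) (t i) (lam i) 0) (ν s) := by
  obtain ⟨x, t, lam, h1, h2, h3, h4⟩ := seq_of_lim hb h ht s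
  refine ⟨x, fun i => t i + s / lam i ^ 2, lam, h1, tendsto_time h3 h2 s, h3, ?_⟩
  simpa only [rescaled, zero_div, add_zero] using h4

end Vale.Agent.P218R27
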