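import Vale.Agent.P218R27.Cone
import Vale.Agent.P218R27.Seq
import Vale.Agent.P218G.GCore

/-! Federer's dimension reduction from a condition on the blow-up limits of the time slices before
the time `t₀`. -/

set_option linter.all false

open MeasureTheory Set Filter Topology Metric

namespace Vale.Agent.P218R27

open Vale.Agent.P218 Vale.Agent.P218.H552 Vale.Agent.P218G Vale.Agent.P218.H313.A1
open Vale.Agent.P218G.Lit Vale.Agent.P218G.Rg Vale.Agent.P218G.GL Vale.Agent.P218G.GC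
open Vale.Agent.P218G.WL
open Vale.Agent.P218FT (E3 IsShr AreaRatio scaleSet mem_scaleSet twoPt_scale)
open Vale.Agent.P218F.Dyn (hm)

/-- limits of rescalings about points `(x_i, t_i)` with `t_i ≤ t₀` -/
def LimP (μ : ℝ → Measure E3) (x₀ : E3) (t₀ : ℝ) (ν : ℝ → Measure E3) : Prop :=
  ∃ (ι : Type) (U : Ultrafilter ι) (x : ι → E3) (t lam : ι → ℝ), LimD U x t lam μ x₀ t₀ ν ∧
    ∀ᶠ i in U, t i ≤ t₀

variable {μ ν ν' : ℝ → Measure E3} {x₀ : E3} {t₀ a D : ℝ}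

lemma LimP.lim (h : LimP μ x₀ t₀ ν) : Lim μ x₀ t₀ ν :=
  let ⟨ι, U, x, t, lam, h1, _⟩ := h
  ⟨ι, U, x, t, lam, h1⟩

lemma limP_of_blow {U : Ultrafilter ℕ} {lam : ℕ → ℝ} (h : Blow U lam μ x₀ t₀ ν) :
    LimP μ x₀ t₀ ν := ⟨ℕ, U, _, _, lam, h.limD, Eventually.of_forall fun _ => le_rfl⟩

lemma LimP.blow (hb : LimP μ x₀ t₀ ν) (h : GS μ a D) (ht : a < t₀) {J : Type} {l' : Filter J}
    [l'.NeBot] {c : J → ℝ} {y : E3} {τ : ℝ} (hB : Blow l' c ν y τ ν') (hτ : τ ≤ 0) :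
    LimP μ x₀ t₀ ν' := by
  obtain ⟨ι, U, x, t, lam, hb, hp⟩ := hb
  have := neBot_curry l' (U : Filter ι)
  have key : ∀ᶠ j in l', LimD U (fun i => x i + (lam i)⁻¹ • y) (fun i => t i + τ / lam i ^ 2)
      (fun i => c j * lam i) μ x₀ t₀ (rescaled 2 ν y τ (c j)) :=
    (hB.top.eventually_gt_atTop 0).mono fun j hj => hb.scale h ht _ _ hj
  have hs : Tendsto (Prod.snd : J × ι → ι) (l'.curry (U : Filter ι)) U := fun A hA =>
    eventually_curry_iff.2 (Eventually.of_forall fun _ => hA)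
  have h1 : LimD (l'.curry (U : Filter ι)) (fun p : J × ι => x p.2 + (lam p.2)⁻¹ • y)
      (fun p : J × ι => t p.2 + τ / lam p.2 ^ 2) (fun p : J × ι => c p.1 * lam p.2) μ x₀ t₀ ν' := by
    refine ⟨?_, ?_, ?_, hB.lf, fun s => ?_⟩
    · exact (tendsto_point hb.top hb.hx y).comp hs
    · exact (tendsto_time hb.top hb.ht τ).comp hs
    · exact Tendsto.curry (f := fun j i => c j * lam i) (key.mono fun j hj => hj.top)
    · exact WL.curry (n := fun j => rescaled 2 ν y τ (c j) s) (key.mono fun j hj => hj.lim s)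
        (hB.lim s)
  have h2 : ∀ᶠ p : J × ι in l'.curry U, t p.2 + τ / lam p.2 ^ 2 ≤ t₀ := by
    refine eventually_curry_iff.2 (Eventually.of_forall fun j => ?_)
    filter_upwards [hp] with i hi
    have := div_nonpos_of_nonpos_of_nonneg hτ (sq_nonneg (lam i))
    linarith
  have h3 := Ultrafilter.of_le (l'.curry (U : Filter ι))
  exact ⟨J × ι, Ultrafilter.of (l'.curry (U : Filter ι)), fun p => x p.2 + (lam p.2)⁻¹ • y,
    fun p => t p.2 + τ / lam p.2 ^ 2, fun p => c p.1 * lam p.2, h1.mono h3, h2.filter_mono h3⟩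

/-- a slice at a negative time is a limit of a sequence of rescaled slices before `t₀` -/
lemma LimP.seq (hb : LimP μ x₀ t₀ ν) (h : GS μ a D) (ht : a < t₀) : ∃ (x : ℕ → E3) (t lam : ℕ → ℝ),
    Tendsto x atTop (𝓝 x₀) ∧ Tendsto t atTop (𝓝 t₀) ∧ (∀ i, t i < t₀) ∧ Tendsto lam atTop atTop ∧
      WeakTendsto (fun i => rescaled 2 μ (x i) (t i) (lam i) 0) (ν (-1)) := by
  obtain ⟨ι, U, x, t, lam, hb, hp⟩ := hb
  obtain ⟨u, h1, h2⟩ := exists_seq (hb.lim (-1)) (hb.ev' h ht (-1)) (hb.ent h ht (-1))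
    (G := comap x (𝓝 x₀) ⊓ (comap t (𝓝 t₀) ⊓ (comap lam atTop ⊓ 𝓟 {i | t i ≤ t₀ ∧ 0 < lam i})))
    (le_inf (tendsto_iff_comap.1 hb.hx) (le_inf (tendsto_iff_comap.1 hb.ht)
      (le_inf (tendsto_iff_comap.1 hb.top)
        (le_principal_iff.2 (hp.and (hb.top.eventually_gt_atTop 0))))))
  rw [tendsto_inf, tendsto_inf, tendsto_inf, tendsto_comap_iff, tendsto_comap_iff,
    tendsto_comap_iff, tendsto_principal] at h1
  obtain ⟨N, hN⟩ := eventually_atTop.1 h1.2.2.2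
  have hs := tendsto_add_atTop_nat N
  refine ⟨fun n => x (u (n + N)), fun n => t (u (n + N)) + -1 / lam (u (n + N)) ^ 2,
    fun n => lam (u (n + N)), h1.1.comp hs, tendsto_time (h1.2.2.1.comp hs) (h1.2.1.comp hs) (-1),
    fun n => ?_, h1.2.2.1.comp hs, ?_⟩
  · obtain ⟨b1, b2⟩ := hN (n + N) (Nat.le_add_left _ _)
    have : -1 / lam (u (n + N)) ^ 2 < 0 := div_neg_of_neg_of_pos (by norm_num) (by positivity)
    linarith
  · intro φ b1 b2
    simpa only [rescaled, zero_div, add_zero] using h2.comp hs φ b1 b2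

/-- static limit cones which are invariant along a line have density less than two -/
def NoConeP (μ : ℝ → Measure E3) (x₀ : E3) (t₀ : ℝ) : Prop :=
  ∀ ν, LimP μ x₀ t₀ ν → SS ν → Stat ν → ∀ v : E3, ‖v‖ = 1 → Inv ν v → GA (ν (-1)) 0 1 < 2 * om0

section

variable (hμ : IsIntegralBrakkeFlow 2 μ) (h0 : μ 0 univ < ⊤) (hU : IsUnitRegular μ)
  (hc : Par.IsCyclic μ) (ha : 0 < a) (ht : a < t₀) (h : GS μ a D) (H : NoConeP μ x₀ t₀)
  (hb : LimP μ x₀ t₀ ν) (ss : SS ν)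
include hμ h0 ha ht h H hb ss

lemma c2 (st : Stat ν) {v p : E3} (hv : ‖v‖ = 1) (iv : Inv ν v) (hp : p ∉ Par.axis v) :
    DL ν p (-1) := fun θ hθ => by
  obtain ⟨ν', a0, a1, a2, a3, a7, a4, a5, -, a6⟩ := hb.lim.exists_tangent h
    ((key_ibf hμ h0).later ha.le) ht p 0 (dens_zero st (by norm_num) hθ)
  have a8 : GA (ν' (-1)) 0 1 = θ := a3 1 one_pos
  exact a8 ▸ Itg.p2 hμ h0 h ht (ha.trans ht) a1 a2 (a4 le_rfl st)
    (fun c => by simp [c] at hv) (fun z c => hp ⟨z, c.symm⟩) (a5 le_rfl v iv) (a6 rfl ss)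
    (a7 _) (a8 ▸ H ν' (hb.blow h ht a0 le_rfl) a2 (a4 le_rfl st) v hv (a5 le_rfl v iv))

include hU hc

lemma c1 (st : Stat ν) {p : E3} (hp : p ≠ 0) : DL ν p (-1) := fun θ hθ => by
  obtain ⟨ν', a0, a1, a2, a3, -, a4, -, -, a6⟩ := hb.lim.exists_tangent h
    ((key_ibf hμ h0).later ha.le) ht p 0 (dens_zero st (by norm_num) hθ)
  have a8 : GA (ν' (-1)) 0 1 = θ := a3 1 one_pos
  have a9 := hb.blow h ht a0 le_rfl
  have iv : Inv ν' (‖p‖⁻¹ • p) := fun b s hs => by rw [smul_smul]; exact a6 rfl ss _ s hs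
  exact a8 ▸ l0_lim hμ h0 hU hc h ha.le ht a1 a2 (a4 le_rfl st) (norm_smul_inv_norm hp) iv
    (H ν' a9 a2 (a4 le_rfl st) _ (norm_smul_inv_norm hp) iv) fun q hq =>
      c2 hμ h0 ha ht h H a9 a2 (a4 le_rfl st) (norm_smul_inv_norm hp) iv hq

lemma c0 (y : E3) {t : ℝ} (ht' : t < 0) : DL ν y t := fun θ hθ => by
  obtain ⟨ν', a0, a1, a2, a3, -, -, -, a5, -⟩ := hb.lim.exists_tangent h
    ((key_ibf hμ h0).later ha.le) ht y t hθ
  have a8 : GA (ν' (-1)) 0 1 = θ := a3 1 one_pos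
  exact a8 ▸ l1_lim' hμ h0 hU h ha.le ht a1 a2 (a5 ht' ss) fun q hq =>
    c1 hμ h0 hU hc ha ht h H (hb.blow h ht a0 ht'.le) a2 (a5 ht' ss) hq

end

/-- bounded geometry of a smooth self-similar limit flow -/
theorem bdd_limP (hμ : IsIntegralBrakkeFlow 2 μ) (h0 : μ 0 univ < ⊤) (hU : IsUnitRegular μ)
    (ha : 0 ≤ a) (h : GS μ a D) (ht : a < t₀) (hb : LimP μ x₀ t₀ ν) (hs : SS ν) {S : Set E3}
    {D' : ℝ} (hS : IsShr S) (hA : AreaRatio D' S) (hE : Spt ν (-1) = S)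
    (hcore : ∀ ν', LimP μ x₀ t₀ ν' → SS ν' → ∀ y θ, Dens ν' y (-1) θ → θ ≤ om0) : BddGeom S := by
  obtain ⟨ε, hg⟩ := exists_eps D
  obtain ⟨K, hK⟩ := hb.lim.rsG hg (hg.ibf μ a hμ h0 hU ha h) ht
  have hk := hb.lim.key h ht ((key_ibf hμ h0).later ha) (-1)
  refine BG.bdd_of_ultra hS hA fun y _ U hU' z => ?_
  have m1 : (-1 : ℝ) < 0 := by norm_num
  obtain ⟨ν', hB⟩ := exists_blow (lam := id) U hU' (hK (-1)).gs y m1
  obtain ⟨W, hW, r, C, hr, h1⟩ := (hB.limD.rs hg (hK (-1)) m1 (-2)).memG hg (y := z) (t := -1)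
    (by norm_num) (hcore ν' (hb.blow h ht hB le_rfl) (hB.ss (hK (-1)).gs m1 hk) z)
  obtain ⟨ρ, hρ, h2⟩ := Metric.mem_nhds_iff.1 hW
  refine ⟨ρ, r, C, hρ, hr, ?_⟩
  filter_upwards [h1, hU' (eventually_gt_atTop 0)] with c a1 a2 x hx a3
  have a4 : x - c • y ∈ scaleSet 1 (c • y) S := by simpa [mem_scaleSet] using hx
  have a5 := a1.2 (-1, x - c • y) (h2 (by
    rw [← ball_prod_same]
    exact ⟨mem_ball_self hρ, by rwa [mem_ball_iff_norm, sub_sub]⟩))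
  simp only [id, hs.spt_zero y a2, hE] at a5
  simpa using (twoPt_scale one_pos a4 r C).1 (a5 a4)

/-- **some tangent flow is a smooth shrinker of bounded geometry** -/
theorem gcP (hμ : IsIntegralBrakkeFlow 2 μ) (h0 : μ 0 univ < ⊤) (hU : IsUnitRegular μ)
    (hc : Par.IsCyclic μ) (ht : 0 < t₀)
    (H : ∀ κ : Measure E3, IsLocallyFiniteMeasure κ → (∃ (x : ℕ → E3) (t lam : ℕ → ℝ),
      Tendsto x atTop (𝓝 x₀) ∧ Tendsto t atTop (𝓝 t₀) ∧ (∀ i, t i < t₀) ∧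
      Tendsto lam atTop atTop ∧ WeakTendsto (fun i => rescaled 2 μ (x i) (t i) (lam i) 0) κ) →
      (∀ c, 0 < c → dil 2 c 0 κ = κ) → ∀ v : E3, ‖v‖ = 1 → (∀ b : ℝ, dil 2 1 (b • v) κ = κ) →
      GA κ 0 1 < 2 * om0) :
    ∃ S : Set E3, IsShr S ∧ BddGeom S ∧ hm S ∈ tangentSlices 2 μ x₀ t₀ := by
  have hs := half_pos ht
  have hst := half_lt_self ht
  have h := gs_proof μ hμ h0 _ hs
  have H' : NoConeP μ x₀ t₀ := fun ν a1 a2 a3 v a4 a5 => H _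
    (let ⟨_, _, _, _, _, b, _⟩ := a1; b.lf _) (a1.seq h hst) (fun c hc => a2.cone a3 hc) v a4
    fun b => a5 b _ (by norm_num)
  obtain ⟨ε, hg⟩ := exists_eps ((μ 0).real univ / (t₀ / 2))
  obtain ⟨T, H'', hBF⟩ := H552.exists_BF hμ
  obtain ⟨κ, ⟨S, a1, a2, rfl⟩, a3⟩ := Dyn.mem_tangentSlices (x₀ := x₀) hBF h0 ht
    (P := fun κ => ∃ S, IsShr S ∧ BddGeom S ∧ κ = hm S) fun U lam hl => by
      obtain ⟨ν, hB⟩ := exists_blow U hl h x₀ hst
      have hs' := hB.ss h hst ((key_ibf hμ h0).later hs.le)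
      have hP := limP_of_blow hB
      obtain ⟨K, hK⟩ := hB.toLim.rsG hg (hg.ibf μ _ hμ h0 hU hs.le h) hst
      obtain ⟨b1, -, -, b2, D', b3⟩ := shr_of hK hs' fun y t ht' =>
        (hK (t - 1)).memG hg (by linarith) (c0 hμ h0 hU hc hs hst h H' hP hs' y ht')
      exact ⟨ν (-1), ⟨_, b1, bdd_limP hμ h0 hU hs.le h hst hP hs' b1 b3 rfl
        fun ν' d1 d2 y => c0 hμ h0 hU hc hs hst h H' d1 d2 y (by norm_num), b2⟩, hB.lf _,
        hB.lim (-1)⟩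
  exact ⟨S, a1, a2, a3⟩

end Vale.Agent.P218R27
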